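import Crest.Agent.X212.Gb54.Qb
import Crest.Agent.X212.Map77.Fin
import Crest.Agent.X212.Nk89.Lv

/-! The gauge group, the slice and the leaf `Slc` for a moving base connection. -/

set_option autoImplicit false
set_option linter.unusedSectionVars false
noncomputable section
open scoped Manifold ContDiff Topology InnerProductSpace
open MeasureTheory Set Function Filter Module

namespace Crest.Agent.X212.Gb54
open An An.Pre Sob92 Wz78 Std94 Mod61 Slc61 Fred93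
open Grp76 hiding gm1 gmE gmA aα aφ gm1_inj gm1_slice d_inj
open Map77 (Adj Aff IsD sig)

variable {E : Type} [NormedAddCommGroup E] [NormedSpace ℝ E] [FiniteDimensional ℝ E]
  [MeasurableSpace E] [BorelSpace E]
  {HM : Type} [TopologicalSpace HM] {I : ModelWithCorners ℝ E HM} [I.Boundaryless]
  {M : Type} [TopologicalSpace M] [ChartedSpace HM M] [IsManifold I ∞ M]
  [MeasurableSpace M] [T2Space M] [BorelSpace M] [SecondCountableTopology M]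
  {ι : Type} [Fintype ι] {lam : Type} [Fintype lam]
  {T : Type} [NormedAddCommGroup T] [NormedSpace ℝ T]
  {𝔉 : Fam I M ι lam T} (o : Ref 𝔉) {k : ℕ}

theorem mov : Mov (qb o) 𝔉.F0 o.b := ⟨o.sb, o.bP⟩

variable (h𝔉 : 𝔉.OK) (hk : 7 ≤ k) (r : ℕ)

/-- the moving part -/
abbrev twM := tw (EuclideanSpace ℂ (Fin r)) (hy1 o h𝔉 hk) (mov o)

/-- the gauge algebra of level `k` -/
abbrev gbM := gb (EuclideanSpace ℂ (Fin r)) (hy1 o h𝔉 hk) (mov o)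

variable {o r}

theorem aα (g : (gbM o h𝔉 hk r).Gr) (v : o.C r k) (x : M) (a : ι) :
    𝔉.F0.D a (uG (hy1 o h𝔉 hk) ((twM o h𝔉 hk r).g0 g)) x
    + (o.A v.2.2.2 a x + opL (𝔉.F0.val _ _ (g • v).1 x a)) ∘L
      uG (hy1 o h𝔉 hk) ((twM o h𝔉 hk r).g0 g) x
    - uG (hy1 o h𝔉 hk) ((twM o h𝔉 hk r).g0 g) x ∘L
      (o.A v.2.2.2 a x + opL (𝔉.F0.val _ _ v.1 x a)) = 0 := by
  have H := hy1 o h𝔉 hk
  have h1 := par_smul H (mov o) g v x a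
  have h2 := (o.connA h𝔉.B v.2.2.2).cc.par a x
  have h3 : 𝔉.F0.D a (uG H ((twM o h𝔉 hk r).g0 g)) x = dv I (𝔉.G0.F.e a) o.m.p x +
      opL (𝔉.F0.D a (H.gv ((twM o h𝔉 hk r).g0 g)) x) := by
    rw [h𝔉.e0, QB.Hyp.gv, ← H.D_opL _ a x]
    exact dv_add (o.conn.cc.sp x).md (opL.mdifferentiableAt.comp x (H.md_gv _ x))
  have h4 := Wz78.g_p (val_mem H h𝔉 v x a)
  have h5 := g_p' o.ok (val_mem H h𝔉 (g • v) x a)
  rw [h3]
  simp only [uG, ← ContinuousLinearMap.mul_def, Ref.A, Md.addC] at h2 ⊢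
  linear_combination (norm := noncomm_ring) h1 + h2 - h4 + h5

theorem aφ (g : (gbM o h𝔉 hk r).Gr) (v : o.C r k) (x : M) :
    o.Φ0 x + 𝔉.F0.val _ _ (g • v).2.1 x =
      uG (hy1 o h𝔉 hk) ((twM o h𝔉 hk r).g0 g) x (o.Φ0 x + 𝔉.F0.val _ _ v.2.1 x) := by
  have H := hy1 o h𝔉 hk
  refine (spin_smul H (mov o) g v x).trans ?_
  rw [← p_Pp h𝔉 (H.s_spin v x), uG, _root_.add_apply, p_Pp h𝔉 (H.s_spin v x)]
  exact congrArg₂ (· + ·) (p_Pp h𝔉 (H.s_spin v x)).symm rfl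

theorem az (g : (gbM o h𝔉 hk r).Gr) (v : o.C r k) : (g • v).2.2 = v.2.2 :=
  smul_z (hy1 o h𝔉 hk) (mov o) g v

theorem d_inj {v : o.C r k} (hs : ∀ g : (gbM o h𝔉 hk r).Gr, g • v = v → ∀ w : o.C r k, g • w = w) :
    Injective ((gbM o h𝔉 hk r).d v) :=
  (injective_iff_map_eq_zero _).2 fun ξ e => eff (hy1 o h𝔉 hk) h𝔉 fun w => by
    rw [← (twM o h𝔉 hk r).d_zero w ξ, (gbM o h𝔉 hk r).d_eq_zero hs e]; rfl

theorem isD (y : Pnt o r) : IsD y ((gbM o h𝔉 hk r).d (y.pt k)) :=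
  ⟨fun ξ x a => (val_d1 (hy1 o h𝔉 hk) (mov o) _ ξ x a).trans
      (by rw [y.val_α (k := k) (by omega)]; rfl),
    fun ξ x => (val_d2 (hy1 o h𝔉 hk) (mov o) _ ξ x).trans
      (by simp only [QB.spin, y.val_φ (k := k) (by omega)]), d_z (hy1 o h𝔉 hk) (mov o) _⟩

theorem est_pt (hy : Nk89.Hdy 𝔉.F0) (y : Pnt o r) :
    ∃ K : 𝔉.F0.H (k + 2) (Ph o) →L[ℝ] 𝔉.F0.H 0 (Ph o), (gbM o h𝔉 hk r).Est (y.pt k) (y.pt k) K :=
  est (hy1 o h𝔉 hk) (mov o) hy rfl (nice_pt h𝔉 hk y).1.sm (nice_pt h𝔉 hk y).1.sm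

variable (o r)

/-- **The gauge group without the circle.** -/
def gm1 (hy : Nk89.Hdy 𝔉.F0) (Al : (M → CL o.m.V o.m.V) → Circle → Prop)
    (h1 : ∀ w, dif o w ∈ Hs 𝔉.F0.toPre (Ph o) → Al w 1)
    (h2 : ∀ w c, Al w c → MEq I o.m o.m 𝔉.Om id (fun x b a => 𝔉.B.P b a x) 𝔉.B.l w →
      c = 1 ∧ dif o w ∈ Hs 𝔉.F0.toPre (Ph o)) : GrpM o r k Al where
  G := (gbM o h𝔉 hk r).Gr
  L := 𝔉.F0.H (k + 2) o.Pg
  H := 𝔉.F0.H k o.Pg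
  u g := uG (hy1 o h𝔉 hk) ((twM o h𝔉 hk r).g0 g)
  ζ _ := 1
  c1 g := (c1_u _ _).contMDiffOn
  uu g x _ := uu _ h𝔉 _ x
  cJ g x _ := (itx_eq (itx_u _ h𝔉 _ x)).2.2.2.1
  cρ g x _ a := ((itx_eq (itx_u _ h𝔉 _ x)).2.2.1 a).symm
  cj g x _ s := ((itx_eq (itx_u _ h𝔉 _ x)).2.2.2.2 s).symm
  umul g h x _ := umul _ h𝔉 ((twM o h𝔉 hk r).g0 g) ((twM o h𝔉 hk r).g0 h) x
  ζmul _ _ := (mul_one _).symm
  al g y y' e := h1 _ (by
    have H := hy1 o h𝔉 hk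
    have : dif o (uG H ((twM o h𝔉 hk r).g0 g)) = H.gv ((twM o h𝔉 hk r).g0 g) := funext fun x => by
      by_cases hx : x ∈ 𝔉.Om
      · rw [dif, indicator_of_mem hx, uG, add_sub_cancel_left, hsL_opL]
      · rw [dif, indicator_of_notMem hx, gv_off _ h𝔉 _ hx]
    rw [this]
    exact (hs_iff h𝔉).2 ⟨nice_gv H (mov o) h𝔉.tame.choose_spec (nice_pt h𝔉 hk y).1
      (e ▸ (nice_pt h𝔉 hk y').1), H.h_gv _⟩)
  aα g v x _ a := aα h𝔉 hk g v x a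
  aφ g v x := (aφ h𝔉 hk g v x).trans (by simp [cs])
  az g v := (az h𝔉 hk g v).trans (by simp)
  aff g := (gbM o h𝔉 hk r).aff g.v
  ρD g := rD (hy1 o h𝔉 hk) ((twM o h𝔉 hk r).g0 g)
  ρC g := rC (hy1 o h𝔉 hk) ((twM o h𝔉 hk r).g0 g)
  cD := (continuous_rD _).comp (twM o h𝔉 hk r).continuous_g0
  cC := (continuous_rC _).comp (twM o h𝔉 hk r).continuous_g0
  cζ := continuous_const
  cu x := (cu _ x).comp (twM o h𝔉 hk r).continuous_g0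
  vD g h x := (val_rD _ h𝔉 hk _ h x).trans (by simp [cs])
  vC g := val_rC _ h𝔉 hk _
  surj y y' w c _ ha he := by
    obtain ⟨rfl, h3⟩ := h2 w c ha he.m
    obtain ⟨ξ, hξ⟩ := h3 (k + 2) (by omega)
    obtain ⟨g, hg⟩ := exists_g (Z := EuclideanSpace ℂ (Fin r)) (hy1 o h𝔉 hk) h𝔉 he.m hξ
    exact ⟨(twM o h𝔉 hk r).g1 g, hg, rfl⟩
  dense y := ((twM o h𝔉 hk r).dense_g0 (hy1 o h𝔉 hk).dense_sm).mono fun g hg =>
    exists_pnt h𝔉 hk (nice_smul1 _ (mov o) (.of_hcs hg.1 hg.2) (nice_pt h𝔉 hk y).1)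
      (nice_smul2 _ (mov o) (.of_hcs hg.1 hg.2) (nice_pt h𝔉 hk y).2) (by rw [az]; exact y.ht)
  proper y y' := propAt _ (mov o) hy (nice_pt h𝔉 hk y).1.sm (nice_pt h𝔉 hk y').1.sm

/-- **The gauge group on a manifold with ends**, for any reference -/
def gmE (hy : Nk89.Hdy 𝔉.F0) : GrpM o r k (Nk89.AlE o) :=
  gm1 o h𝔉 hk r hy _ (fun _ h => ⟨rfl, h⟩) fun _ _ h _ => h

section one
variable (hy : Nk89.Hdy 𝔉.F0) (Al : (M → CL o.m.V o.m.V) → Circle → Prop)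
    (h1 : ∀ w, dif o w ∈ Hs 𝔉.F0.toPre (Ph o) → Al w 1)
    (h2 : ∀ w c, Al w c → MEq I o.m o.m 𝔉.Om id (fun x b a => 𝔉.B.P b a x) 𝔉.B.l w →
      c = 1 ∧ dif o w ∈ Hs 𝔉.F0.toPre (Ph o)) {v : o.C r k}

theorem gm1_slice (hf : (gm1 o h𝔉 hk r hy Al h1 h2).Free v) (hp : PropAt (gbM o h𝔉 hk r).Gr v v)
    (σ : o.C r k →L[ℝ] 𝔉.F0.H k o.Pg) (hb : Bijective (σ ∘L (gbM o h𝔉 hk r).d v)) :
    ∃ D : SliceData (gm1 o h𝔉 hk r hy Al h1 h2).G (gm1 o h𝔉 hk r hy Al h1 h2).L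
      (gm1 o h𝔉 hk r hy Al h1 h2).H v, SlG o r (gm1 o h𝔉 hk r hy Al h1 h2) D ∧ D.σ = σ ∧
      D.d = (gbM o h𝔉 hk r).d v ∧ D.e = (gbM o h𝔉 hk r).e :=
  ⟨(gbM o h𝔉 hk r).slice v σ hb hp hf, ⟨fun _ => rfl,
    σ.contDiff.comp (contDiff_id.sub contDiff_const), fun _ => (gbM o h𝔉 hk r).image_e_mem,
    fun x => ⟨_, ((opL ∘L 𝔉.F0.ev (k + 2) (Ph o) x).hasStrictFDerivAt.comp 0
      (gbM o h𝔉 hk r).hasStrict_e).const_add _⟩, _, hasStrictFDerivAt_const _ _⟩, rfl, rfl, rfl⟩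

end one

variable {o r} {Fs : T → Fr I M ι} {n m : ℕ} {e : T → PtX M ι lam r n m} {d : ℤ}
  [FiniteDimensional ℝ T]

theorem slc_gm1 (h : Adj 𝔉 Fs) (he : Aff o Fs r n m e) (y : Pnt o r)
    (hF : ∀ f : o.C r k → o.Y n m k, RepF e f → Fr ((fderiv ℝ f (y.pt k)).prod (sig Fs k y)) d)
    (hy : Nk89.Hdy 𝔉.F0) (hy' : Nk89.Hdy (Fs y.t)) (Al : (M → CL o.m.V o.m.V) → Circle → Prop)
    (h1 : ∀ w, dif o w ∈ Hs 𝔉.F0.toPre (Ph o) → Al w 1)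
    (h2 : ∀ w c, Al w c → MEq I o.m o.m 𝔉.Om id (fun x b a => 𝔉.B.P b a x) 𝔉.B.l w →
      c = 1 ∧ dif o w ∈ Hs 𝔉.F0.toPre (Ph o)) :
    (gm1 o h.toOK hk r hy Al h1 h2).Slc e d y := by
  have := h.slc_of he hk (gm1 o h.toOK hk r hy Al h1 h2) y (K := PUnit)
    (ContinuousLinearEquiv.prodUnique ℝ (𝔉.F0.H k o.Pg) PUnit :) (fun hf => ?_) hF
  · rwa [finrank_zero_of_subsingleton, Nat.cast_zero, sub_zero] at this
  obtain ⟨D, s, e, -⟩ := gm1_slice o h.toOK hk r hy Al h1 h2 hf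
    ((gm1 o h.toOK hk r hy Al h1 h2).proper y y) (sig Fs k y)
    (h.sig_bij_hdy (by omega) hy' (isD h.toOK hk y) (d_inj h.toOK hk hf))
  exact ⟨0, D, e, s.nh, s.du, s.dζ⟩

/-- **`Slc` on a manifold with ends**, for any reference -/
theorem slc_gmE (y : Pnt o r) (hy : Nk89.Hdy 𝔉.F0) (he : Aff o (Nk89.Fs 𝔉) r n m e)
    (hI : Nk89.Idx k e y d) :
    (gmE o h𝔉 hk r hy).Slc e (d + 2 * r + finrank ℝ T - 2 * n - m) y :=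
  slc_gm1 hk (Map77.adj_rem h𝔉) he y (fun _ hf => hI.slc h𝔉 (by omega) hf) hy
    (Map77.hdy_rem h𝔉 hy y.ht) _ _ _

end Crest.Agent.X212.Gb54
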