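import Crest.Agent.X212.Grp76.Flo

/-! The gauge algebra of a base connection which moves linearly with a parameter. -/

set_option autoImplicit false

noncomputable section

open Set Filter Topology Function

namespace Crest.Agent.X212.Gb54
open Grp76

variable {R B S C L T C' S' Z : Type*} [NormedAddCommGroup R] [NormedSpace ℝ R]
  [NormedAddCommGroup B] [NormedSpace ℝ B] [NormedAddCommGroup S] [NormedSpace ℝ S]
  [NormedAddCommGroup C] [NormedSpace ℝ C] [NormedAddCommGroup L] [NormedSpace ℝ L]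
  [NormedAddCommGroup T] [NormedSpace ℝ T] [NormedAddCommGroup C'] [NormedSpace ℝ C']
  [NormedAddCommGroup S'] [NormedSpace ℝ S'] [NormedAddCommGroup Z] [NormedSpace ℝ Z]

/-- `lb t u = u * b t`, `rb t u = b t * u` -/
structure TW (D : GA R B S C L) (T C' : Type*) [NormedAddCommGroup T] [NormedSpace ℝ T]
    [NormedAddCommGroup C'] [NormedSpace ℝ C'] where
  lb : T →L[ℝ] R →L[ℝ] B
  rb : T →L[ℝ] R →L[ℝ] B
  e : C' ≃L[ℝ] C × T
  l_m : ∀ t u v, lb t (D.m u v) = D.l u (lb t v)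
  r_m : ∀ t u v, rb t (D.m u v) = D.r v (rb t u)
  l_r : ∀ t u v, D.l u (rb t v) = D.r v (lb t u)
  sb_l : ∀ t u, D.sb (lb t u) = -rb t (D.st u)
  sb_r : ∀ t u, D.sb (rb t u) = -lb t (D.st u)

/-- products with `β + b t` -/
def xt (l : R →L[ℝ] B →L[ℝ] B) (lb : T →L[ℝ] R →L[ℝ] B) : R →L[ℝ] B × T →L[ℝ] B × T :=
  ContinuousLinearMap.compL ℝ (B × T) B (B × T) (.inl ℝ B T) ∘L
    (l.flip ∘L .fst ℝ B T + lb ∘L .snd ℝ B T).flip

@[simp] theorem xt_apply (l : R →L[ℝ] B →L[ℝ] B) (lb : T →L[ℝ] R →L[ℝ] B) (u : R) (p : B × T) :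
    xt l lb u p = (l u p.1 + lb p.2 u, 0) := rfl

namespace TW
variable {D : GA R B S C L} (X : TW D T C')

/-- **The gauge algebra with a moving base connection.** -/
def ga : GA R (B × T) S C' L where
  m := D.m
  st := D.st
  l := xt D.l X.lb
  r := xt D.r X.rb
  sb := D.sb.prodMap (-.id ℝ T)
  del := .inl ℝ B T ∘L D.del
  a := D.a
  ds := D.ds
  pa := D.pa.prodMap (.id ℝ T) ∘L (X.e : C' →L[ℝ] C × T)
  ps := D.ps ∘L .fst ℝ C T ∘L (X.e : C' →L[ℝ] C × T)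
  mk' := (X.e.symm : C × T →L[ℝ] C') ∘L (D.mk' ∘L (ContinuousLinearMap.fst ℝ B T).prodMap
    (.id ℝ S)).prod (.snd ℝ B T ∘L .fst ℝ _ S)
  j := D.j
  q := D.q
  m_assoc := D.m_assoc
  st_st := D.st_st
  st_m := D.st_m
  normal := D.normal
  l_m u v b := by simp [D.l_m, X.l_m]
  r_m u v b := by simp [D.r_m, X.r_m]
  l_r u v b := by simp [D.l_r, X.l_r]
  del_m u v := by simp [D.del_m]
  sb_l u b := by simp [D.sb_l, X.sb_l]
  sb_r u b := by simp [D.sb_r, X.sb_r]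
  sb_del u := by simp [D.sb_del]
  a_m := D.a_m
  ds_m := D.ds_m
  sb_pa x := by simp [Prod.map, D.sb_pa]
  mk_p x := by simp [Prod.map, D.mk_p]
  pa_mk b s h := by simp [Prod.map, D.pa_mk b.1 s (congrArg Prod.fst h)]
  ps_mk b s := by simp [D.ps_mk]
  st_j := D.st_j
  q_j := D.q_j
  j_q := D.j_q

theorem pa_apply (x : C') : X.ga.pa x = (D.pa (X.e x).1, (X.e x).2) := rfl

theorem ps_apply (x : C') : X.ga.ps x = D.ps (X.e x).1 := rfl

theorem T_apply (x y : C') (u : R) : X.ga.T x y u =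
    ((D.del u - (D.l u (D.pa (X.e x).1) + X.lb (X.e x).2 u) +
      (D.r u (D.pa (X.e y).1) + X.rb (X.e y).2 u), 0), D.a u (D.ps (X.e x).1) + D.ds u) :=
  Prod.ext (Prod.ext rfl (by simp [GA.T_apply, ga])) rfl

/-- the group is the same -/
def g0 (g : X.ga.Gr) : D.Gr := g

/-- the group is the same -/
def g1 (g : D.Gr) : X.ga.Gr := g

theorem continuous_g0 : Continuous X.g0 := continuous_id

theorem dense_g0 {s : Set D.Gr} (h : Dense s) : Dense (X.g0 ⁻¹' s) := h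

theorem t_smul (g : X.ga.Gr) (x : C') : (X.e (g • x)).2 = (X.e x).2 := by
  have h := congrArg (·.1.2) ((GA.smul_eq_iff g x _).1 rfl)
  simp only [T_apply, pa_apply, Prod.snd_sub] at h
  exact (sub_eq_zero.1 h.symm).symm

theorem d_zero (w : C) (ξ : L) : (X.e (X.ga.d (X.e.symm (w, 0)) ξ)).1 = D.d w ξ :=
  D.ext_p ((congrArg Prod.fst (X.ga.pa_d _ ξ)).trans (by simp [ga, D.pa_d]))
    ((X.ga.ps_d _ ξ).trans (by simp [ga, D.ps_d]))

theorem propAt {x y : C'} (h : (X.e y).2 = (X.e x).2 → PropAt X.ga.Gr x y) :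
    PropAt X.ga.Gr x y := fun xn g h1 h2 => by
  have c : Continuous fun x => (X.e x).2 := X.e.continuous.snd
  refine h (tendsto_nhds_unique ((c.tendsto y).comp h2) (((c.tendsto x).comp h1).congr fun n => ?_))
    xn g h1 h2
  exact (X.t_smul _ _).symm

/-- `D'` is the gauge algebra of the base connection at `t` -/
structure Frz (t : T) (D' : GA R B S' C' L) (e' : S' ≃L[ℝ] S × T) : Prop where
  m : D'.m = D.m
  st : D'.st = D.st
  l : D'.l = D.l
  r : D'.r = D.r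
  j : D'.j = D.j
  del : ∀ u, D'.del u = D.del u - X.lb t u + X.rb t u
  pa : ∀ x, D'.pa x = D.pa (X.e x).1
  ps : ∀ x, e' (D'.ps x) = (D.ps (X.e x).1, (X.e x).2)
  a : ∀ u s, e' (D'.a u s) = (D.a u (e' s).1, 0)
  ds : ∀ u, e' (D'.ds u) = (D.ds u, 0)

namespace Frz
variable {X} {t : T} {D' : GA R B S' C' L} {e' : S' ≃L[ℝ] S × T} (h : X.Frz t D' e') {x y : C'}
include h

/-- the group is the same -/
def g (g : X.ga.Gr) : D'.Gr := ⟨g.v, by rw [GA.nn, h.m, h.st]; exact g.nn_v⟩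

theorem T1 (hx : (X.e x).2 = t) (hy : (X.e y).2 = t) (u : R) :
    (D'.T x y u).1 = (X.ga.T x y u).1.1 := by
  rw [T_apply]
  simp only [GA.T_apply, h.l, h.r, h.del, h.pa, hx, hy]
  abel

theorem T2 (u : R) : e' (D'.T x y u).2 = ((X.ga.T x y u).2, 0) := by
  rw [T_apply]
  simp [GA.T_apply, h.a, h.ds, h.ps]

theorem smul_eq (g : X.ga.Gr) (hx : (X.e x).2 = t) : h.g g • x = g • x := by
  have h1 := (GA.smul_eq_iff g x _).1 rfl
  have h2 := X.t_smul g x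
  refine (GA.smul_eq_iff _ _ _).2 (Prod.ext ?_ (e'.injective ?_))
  · rw [h.T1 hx (h2.trans hx), h.pa, h.pa]
    exact congrArg (·.1.1) h1
  · rw [h.T2, map_sub, h.ps, h.ps, h2]
    exact Prod.ext (congrArg (·.2) h1) (sub_self _).symm

theorem d_eq (hx : (X.e x).2 = t) (ξ : L) : X.ga.d x ξ = D'.d x ξ := by
  have h1 : X.ga.pa (X.ga.d x ξ) = -(X.ga.T x x (D.j ξ)).1 := X.ga.pa_d x ξ
  have h2 : X.ga.ps (X.ga.d x ξ) = (X.ga.T x x (D.j ξ)).2 := X.ga.ps_d x ξ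
  refine D'.ext_p ?_ (e'.injective ?_)
  · rw [h.pa, show D'.pa (D'.d x ξ) = -(D'.T x x (D'.j ξ)).1 from D'.pa_d x ξ, h.T1 hx hx, h.j]
    exact congrArg Prod.fst h1
  · rw [h.ps, show D'.ps (D'.d x ξ) = (D'.T x x (D'.j ξ)).2 from D'.ps_d x ξ, h.T2, h.j]
    exact Prod.ext h2 ((congrArg Prod.snd h1).trans (by simp [T_apply]))

theorem est (hx : (X.e x).2 = t) (hy : (X.e y).2 = t) {K : R →L[ℝ] Z} (a : D'.Est x y K) :
    X.ga.Est x y K := by
  obtain ⟨hK, ⟨M, hM⟩, c, hc⟩ := a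
  let N : (B × T) × S →L[ℝ] B × S' := (ContinuousLinearMap.fst ℝ B T).prodMap
    ((e'.symm : S × T →L[ℝ] S') ∘L .inl ℝ S T)
  have hN : ∀ u, D'.T x y u = N (X.ga.T x y u) := fun u =>
    Prod.ext (h.T1 hx hy u) (e'.eq_symm_apply.2 (h.T2 u))
  refine ⟨hK, ⟨M, fun g => hM (h.g g)⟩, |c| * (‖N‖ + 1), fun u => ?_⟩
  have h1 := N.le_opNorm (X.ga.T x y u)
  refine ((hc u).trans (mul_le_mul_of_nonneg_right (le_abs_self c) (by positivity))).trans ?_
  rw [mul_assoc, hN]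
  refine mul_le_mul_of_nonneg_left ?_ (abs_nonneg c)
  nlinarith [norm_nonneg (X.ga.T x y u), mul_nonneg (norm_nonneg N) (norm_nonneg (K u))]

end Frz
end TW

end Crest.Agent.X212.Gb54
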