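import Crest.Agent.X212.Gb54.Gm
import Crest.Agent.X212.Ker54.Main

/-! The leaves SLC and KER + ORB for a moving base connection. -/

set_option autoImplicit false
set_option linter.unusedSectionVars false
noncomputable section
open scoped Manifold ContDiff Topology InnerProductSpace
open MeasureTheory Set Function Filter

namespace Crest.Agent.X212.Gb54
open An An.Pre Sob92 Prm93 Mod61 Eqv71 Nk89 Slc61 Ker54
open Grp76 (Nice mA)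

variable {E : Type} [NormedAddCommGroup E] [NormedSpace ℝ E] [FiniteDimensional ℝ E]
  [MeasurableSpace E] [BorelSpace E]
  {HM : Type} [TopologicalSpace HM] {I : ModelWithCorners ℝ E HM} [I.Boundaryless]
  {M : Type} [TopologicalSpace M] [ChartedSpace HM M] [IsManifold I ∞ M]
  [MeasurableSpace M] [T2Space M] [BorelSpace M] [SecondCountableTopology M]
  {ι κ : Type} [Fintype ι] [Fintype κ] {lam : Type} [Fintype lam]
  {T : Type} [NormedAddCommGroup T] [NormedSpace ℝ T]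

/-- `Nk89.Ends.SlcStmt` for any reference -/
def SlcStmt {𝔉 : Fam I M (Option κ) lam T} {δ : ℝ} (X : Ends 𝔉 δ) : Prop :=
  ∀ [FiniteDimensional ℝ T] (o : Ref 𝔉) (hy : Hdy 𝔉.F0) (r n m k : ℕ)
  (hk : 7 ≤ k) (e : T → PtX M (Option κ) lam r n m) (y : Pnt o r) (d : ℤ),
  Map77.Aff o (Fs 𝔉) r n m e → Idx k e y d →
  (gmE o X.ok hk r hy).Slc e (d + 2 * r + Module.finrank ℝ T - 2 * n - m) y

theorem slc {𝔉 : Fam I M (Option κ) lam T} {δ : ℝ} (X : Ends 𝔉 δ) : SlcStmt X :=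
  fun _ hy _ _ _ _ hk _ y _ => slc_gmE X.ok hk y hy

variable {𝔉 : Fam I M ι lam T} (h : 𝔉.OK) {o : Ref 𝔉} {r k : ℕ}

theorem in0_d (hk : 7 ≤ k) (y : Pnt o r) (η : 𝔉.F0.H (k + 2) o.Pg) :
    In0 k y (𝔉.F0.val _ _ η) 0 ((gbM o h hk r).d (y.pt k) η) :=
  have H := isD h hk y
  ⟨H.a η, fun x => (H.s η x).trans (by rw [zero_smul, add_zero]), (H.z η).trans (by simp; rfl)⟩

theorem tan_gmE [CompleteSpace T] (hk : 7 ≤ k) (hy : Hdy 𝔉.F0) (y : Pnt o r) :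
    Tan (gmE o h hk r hy) y := fun hf D ξ => by
  obtain ⟨_, he⟩ := est_pt h hk hy y
  obtain ⟨η, e⟩ := ga_range (gbM o h hk r) he (d_inj h hk hf) hf D ξ
  exact ⟨η, e ▸ in0_d h hk y η⟩

omit h in
/-- parameters which commute with `b` off a compact set -/
theorem mb_of {ξ : M → o.m.A} (hξ : Sm I ξ) {K : Set M} (hK : IsCompact K)
    (e : ∀ t a, ∀ x ∉ K, mA (ξ x) (o.b t x a) = mA (o.b t x a) (ξ x)) : Mb o ξ := fun t a =>
  have hb : Sm I fun x => o.b t x a := Cb.sm (Cb_clm (Grp76.pj o.m.A a) (o.sb.cb t trivial))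
  .of_hcs ((smooth_bil mA hξ hb).sub (smooth_bil mA hb hξ))
    (.intro hK fun x hx => sub_eq_zero.2 (e t a x hx))

variable [CompleteSpace T] (o) in
/-- `Ker54.KerStmt'` for any reference -/
def KerStmt : Prop := ∀ (h : 𝔉.OK) (hy : Hdy 𝔉.F0) (r n m k : ℕ) (hk : 7 ≤ k)
  (W : Type) (e : T → PtX M ι lam r n m) (τ : W → T → PtX M ι lam r n m) (P : Pnt o r → Prop)
  (d : ℤ) (Adm : (W →₀ ℝ) → Prop) (H : (thE (gmE o h hk r hy) e τ P d).OK Adm),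
  𝔉.Nat e → (∀ w, 𝔉.Nat (τ w)) → ∀ (q : W →₀ ℝ) (y : Pnt o r), Adm q → H.Q.Sol q ⟨(), y⟩ →
  H.Q.Reg q ⟨(), y⟩ → ∀ (K : Type) [NormedAddCommGroup K] [NormedSpace ℝ K]
  [FiniteDimensional ℝ K] (ξ : K →ₗ[ℝ] M → o.m.A) (c : K →ₗ[ℝ] ℝ), Sy y ξ c → (∀ s, Mb o (ξ s)) →
  (Module.finrank ℝ K : ℤ) ≤ d ∧ ((Module.finrank ℝ K : ℤ) = d →
    (∀ᶠ x in H.Q.Near ⟨(), y⟩, H.Q.Sol q x → x.2.t = y.t ∧ ∃ w ζ, y.Eq x.2 w ζ) ∧
    Orb H q ⟨(), y⟩ ∧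
    ∀ v : o.C r k, fderiv ℝ ((thE (gmE o h hk r hy) e τ P d).F () q) (y.pt k) v = 0 →
      ∃ s, ∃ η : 𝔉.F0.H (k + 2) o.Pg, IsInf k y (ξ s + 𝔉.F0.val _ _ η) (c s) v ∧
        (Nice 𝔉.F0.toPre (𝔉.F0.val _ _ v.1) → 𝔉.F0.val _ _ η ∈ Hs 𝔉.F0.toPre o.Pg))

omit h in
theorem ker [CompleteSpace T] : KerStmt o := by
  intro h hy r n m k hk W e τ P d Adm H ne nτ q y ha hx hr K _ _ _ ξ c sy mb
  obtain ⟨-, h1, h2⟩ := ker_th H ne nτ ha hx hr (tan_gmE h hk hy y) sy mb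
  refine ⟨h1, fun e => ?_⟩
  obtain ⟨h3, h4⟩ := h2 e
  refine ⟨(h3.isol H ((H.sol_iff q _).1 hx).2).mono fun x a z => a ((H.sol_iff q x).1 z).2, h3,
    fun v hv => ?_⟩
  obtain ⟨s, η, h5, h6⟩ := h4 v hv
  exact ⟨s, η, h5.isInf h fun x => add_mem ((Grp76.Pg_iff h x _).1 ((sy.inf s).mem x)).1
    ((Grp76.Pg_iff h x _).1 (val_proj h.sup (k := k + 2) (by omega) η x)).1, h6⟩

end Crest.Agent.X212.Gb54
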