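import Crest.Agent.X212.Gb54.Abs
import Crest.Agent.X212.Grp76.Est
import Crest.Agent.X212.Prm93.H

/-! The Sobolev gauge algebra of a base connection `W + b t`. -/

set_option autoImplicit false
set_option linter.unusedSectionVars false
noncomputable section
open scoped Manifold ContDiff Topology InnerProductSpace
open MeasureTheory Set Function Filter

namespace Crest.Agent.X212.Gb54
open An An.Pre Sob92 Wz78 Grp76 Prm93

variable {E : Type} [NormedAddCommGroup E] [NormedSpace ℝ E] [FiniteDimensional ℝ E]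
  [MeasurableSpace E] [BorelSpace E]
  {HM : Type} [TopologicalSpace HM] {I : ModelWithCorners ℝ E HM} [I.Boundaryless]
  {M : Type} [TopologicalSpace M] [ChartedSpace HM M] [IsManifold I ∞ M]
  [MeasurableSpace M] [T2Space M] [BorelSpace M] [SecondCountableTopology M]
  {ι : Type} [Fintype ι] {κ : Type} [Fintype κ] [DecidableEq κ]
  {T : Type} [NormedAddCommGroup T] [NormedSpace ℝ T]
  {Z : Type} [NormedAddCommGroup Z] [NormedSpace ℝ Z]

variable (Q : QB M ι κ) (F : Fr I M ι) (k : ℕ)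

/-- the base connection moved by `η` -/
abbrev fz (η : M → Fm ι (HS κ)) : QB M ι κ :=
  ⟨Q.h, Q.g, Q.c, Q.s, fun a x => Q.W a x + opL (η x a), Q.Φ⟩

/-- products with the form `η` -/
def bH (β : CL (HS κ) (CL (HS κ) (HS κ))) (η : M → Fm ι (HS κ)) : Q.R F k →L[ℝ] Q.Bf F k :=
  F.mulH k Q.h (Q.b F) (fun x => (onF ι β).flip (η x)) ∘L F.incl (k + 1) k Q.h

/-- a linear family of forms with values in `g` -/
structure Mov (b : T →ₗ[ℝ] M → Fm ι (HS κ)) : Prop where
  sb : SB F.toPre univ fun t => b t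
  c : ∀ t x, Q.c x (b t x) = b t x

variable {Q F k} (H : Q.Hyp F k)
include H

theorem hyp_fz {η : M → Fm ι (HS κ)} (hη : F.Cb η) (hc : ∀ x, Q.c x (η x) = η x) :
    (fz Q η).Hyp F k :=
  have h := fun x => (H.c_iff x _).1 (hc x)
  { H with
    cW := fun a => Cb_add (H.cW a) (Cb_clm (opL ∘L pj _ a) hη)
    par := fun u hu h1 a x => by
      have h2 := H.par u hu h1 a x
      have h3 := H.g_adc ((h x).1 a) (h1 x)
      simp only [nab, QB.ad, ← adcL_apply, map_add, _root_.add_apply] at h2 h3 ⊢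
      rw [← add_assoc, h2, h3, add_assoc]
    sk := fun a x y z => by
      simp only [_root_.add_apply, inner_add_left, inner_add_right, H.sk a x y z,
        (skw_iff _).2 ((H.g_iff x _).1 ((h x).1 a)).2 y z]
      ring
    WP := fun a x => by
      simp only [smul_add, Finset.sum_add_distrib, H.WP, ← map_smul, ← map_sum, (h x).2] }

theorem val_bH {β : CL (HS κ) (CL (HS κ) (HS κ))}
    (hβ : Maps₂ Q.h (Q.b F) (Q.b F) fun _ => onF ι β) {η : M → Fm ι (HS κ)} (hη : F.Cb η)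
    (hc : ∀ x, Q.c x (η x) = η x) (u : Q.R F k) (x : M) (a : ι) :
    F.val _ _ (bH Q F k β η u) x a = β (F.val _ _ u x) (η x a) := by
  rw [bH, ContinuousLinearMap.comp_apply, val_mulH H.hS H.k4 (Cb_clm _ hη)
    fun x v hv => hβ x v _ hv (H.m_pa x _ (hc x)), val_incl H.hS H.k4 k.le_succ]
  exact onF_apply _ _ _ _

variable {b : T →ₗ[ℝ] M → Fm ι (HS κ)} (hb : Mov Q F b)
include hb

/-- products with `b t` -/
def bT {β : CL (HS κ) (CL (HS κ) (HS κ))} (hβ : Maps₂ Q.h (Q.b F) (Q.b F) fun _ => onF ι β) :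
    T →L[ℝ] Q.R F k →L[ℝ] Q.Bf F k where
  toFun t := bH Q F k β (b t)
  map_add' s t := ContinuousLinearMap.ext fun u => H.ext fun x => PiLp.ext fun a => by
    rw [_root_.add_apply, val_add, Pi.add_apply, PiLp.add_apply]
    simp only [val_bH H hβ (hb.sb.cb _ trivial) (hb.c _)]
    rw [map_add b, Pi.add_apply, PiLp.add_apply, map_add]
  map_smul' c t := ContinuousLinearMap.ext fun u => H.ext fun x => PiLp.ext fun a => by
    rw [_root_.smul_apply, val_smul, Pi.smul_apply, PiLp.smul_apply]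
    simp only [val_bH H hβ (hb.sb.cb _ trivial) (hb.c _)]
    rw [map_smul b, Pi.smul_apply, PiLp.smul_apply, map_smul, RingHom.id_apply]
  cont := (continuousOn_univ.1 ((hb.sb.clm (onF ι β).flip).mulH H.cb H.bb fun t _ x v hv =>
    hβ x v _ hv (H.m_pa x _ (hb.c t x))).continuousOn).clm_comp continuous_const

theorem val_lb (t : T) (u : Q.R F k) (x : M) (a : ι) :
    F.val _ _ (bT H hb H.m_l t u) x a = mA (F.val _ _ u x) (b t x a) :=
  val_bH H H.m_l (hb.sb.cb _ trivial) (hb.c _) u x a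

theorem val_rb (t : T) (u : Q.R F k) (x : M) (a : ι) :
    F.val _ _ (bT H hb H.m_r t u) x a = mA (b t x a) (F.val _ _ u x) :=
  val_bH H H.m_r (hb.sb.cb _ trivial) (hb.c _) u x a

theorem tA_b (t : T) (x : M) (a : ι) : tA (b t x a) = -b t x a :=
  ((H.g_iff x _).1 (((H.c_iff x _).1 (hb.c t x)).1 a)).2

variable (Z) in
/-- the moving part -/
def tw : TW (H.ga Z) T (Q.C F k (Z × T)) where
  lb := bT H hb H.m_l
  rb := bT H hb H.m_r
  e := ((ContinuousLinearEquiv.refl ℝ _).prodCongr (ContinuousLinearEquiv.prodAssoc ℝ _ Z T).symm).trans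
    (ContinuousLinearEquiv.prodAssoc ℝ _ _ T).symm
  l_m t u v := H.ext fun x => PiLp.ext fun a => by
    simp only [QB.Hyp.ga, H.val_l, val_lb, H.val_m, mA_assoc]
  r_m t u v := H.ext fun x => PiLp.ext fun a => by
    simp only [QB.Hyp.ga, H.val_r, val_rb, H.val_m, mA_assoc]
  l_r t u v := H.ext fun x => PiLp.ext fun a => by
    simp only [QB.Hyp.ga, H.val_l, H.val_r, val_lb, val_rb, mA_assoc]
  sb_l t u := H.ext fun x => PiLp.ext fun a => by
    rw [val_neg, Pi.neg_apply, PiLp.neg_apply]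
    simp only [QB.Hyp.ga, H.val_sb, H.val_t, val_lb, val_rb, tA_mA, tA_b H hb, map_neg,
      _root_.neg_apply]
  sb_r t u := H.ext fun x => PiLp.ext fun a => by
    rw [val_neg, Pi.neg_apply, PiLp.neg_apply]
    simp only [QB.Hyp.ga, H.val_sb, H.val_t, val_lb, val_rb, tA_mA, tA_b H hb, map_neg]

theorem e_apply (v : Q.C F k (Z × T)) :
    (tw Z H hb).e v = ((v.1, v.2.1, v.2.2.1), v.2.2.2) := rfl

/-- the hypotheses at the parameter `t` -/
theorem hyt (t : T) : (fz Q (b t)).Hyp F k := hyp_fz H (hb.sb.cb _ trivial) (hb.c t)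

theorem frz (t : T) : (tw Z H hb).Frz t ((hyt H hb t).ga (Z × T))
    (ContinuousLinearEquiv.prodAssoc ℝ _ Z T).symm where
  m := rfl
  st := rfl
  l := rfl
  r := rfl
  j := rfl
  del u := H.ext fun x => PiLp.ext fun a => by
    refine ((hyt H hb t).val_del u x a).trans ?_
    show _ = F.val _ _ (Q.delH F k u - bT H hb H.m_l t u + bT H hb H.m_r t u) x a
    rw [val_add, val_sub, Pi.add_apply, Pi.sub_apply, PiLp.add_apply, PiLp.sub_apply, H.val_del,
      val_lb, val_rb]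
    simp only [nab, QB.ad, ← adcL_apply, map_add, _root_.add_apply]
    simp only [adcL_apply, adc_opL]
    abel
  pa _ := rfl
  ps _ := rfl
  a _ _ := rfl
  ds _ := rfl

variable (Z) in
/-- **The gauge algebra of the moving base connection.** -/
abbrev gb := (tw Z H hb).ga

/-- the gauge transformation for the base connection at `t` -/
abbrev gt (t : T) (g : (gb Z H hb).Gr) : ((hyt H hb t).ga (Z × T)).Gr := (frz H hb t).g g

theorem smul_eq (g : (gb Z H hb).Gr) (v : Q.C F k (Z × T)) : gt H hb v.2.2.2 g • v = g • v :=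
  (frz H hb _).smul_eq g rfl

theorem d_eq (v : Q.C F k (Z × T)) (ξ : Q.L F k) :
    (gb Z H hb).d v ξ = ((hyt H hb v.2.2.2).ga (Z × T)).d v ξ := (frz H hb _).d_eq rfl ξ

/-- the value `ξ` of the gauge transformation `1 + ξ` -/
abbrev gv (g : (gb Z H hb).Gr) : M → HS κ := H.gv ((tw Z H hb).g0 g)

section act
variable (g : (gb Z H hb).Gr) (v : Q.C F k (Z × T))

theorem par_smul (x : M) (a : ι) : opL (F.D a (gv H hb g) x) +
    (Q.W a x + opL (b v.2.2.2 x a) + opL (F.val _ _ (g • v).1 x a)) * (1 + opL (gv H hb g x)) -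
    (1 + opL (gv H hb g x)) * (Q.W a x + opL (b v.2.2.2 x a) + opL (F.val _ _ v.1 x a)) = 0 :=
  smul_eq H hb g v ▸ (hyt H hb v.2.2.2).par_smul (gt H hb _ g) v x a

theorem spin_smul (x : M) :
    Q.spin F k (g • v) x = Q.spin F k v x + opL (gv H hb g x) (Q.spin F k v x) :=
  smul_eq H hb g v ▸ (hyt H hb v.2.2.2).spin_smul (gt H hb _ g) v x

theorem smul_z : (g • v).2.2 = v.2.2 := smul_eq H hb g v ▸ (hyt H hb v.2.2.2).smul_z _ v

theorem val_d1 (ξ : Q.L F k) (x : M) (a : ι) : F.val _ _ ((gb Z H hb).d v ξ).1 x a =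
    -nab I F.e (fun a x => adc (Q.W a x + opL (b v.2.2.2 x a) + opL (F.val _ _ v.1 x a))) a
      (F.val _ _ ξ) x := by
  rw [d_eq]; exact (hyt H hb v.2.2.2).val_d1 v ξ x a

theorem val_d2 (ξ : Q.L F k) (x : M) :
    F.val _ _ ((gb Z H hb).d v ξ).2.1 x = opL (F.val _ _ ξ x) (Q.spin F k v x) := by
  rw [d_eq]; exact (hyt H hb v.2.2.2).val_d2 v ξ x

theorem d_z (ξ : Q.L F k) : ((gb Z H hb).d v ξ).2.2 = 0 := by
  rw [d_eq]; exact (hyt H hb v.2.2.2).d_z v ξ

variable {g v}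

theorem nice_gv {C : ℕ → ℝ} (hF : F.Tame C) (hv : Nice F.toPre (F.val _ _ v.1))
    (hw : Nice F.toPre (F.val _ _ (g • v).1)) : Nice F.toPre (gv H hb g) :=
  (hyt H hb v.2.2.2).nice_gv (g := gt H hb _ g) hF hv ((smul_eq H hb g v).symm ▸ hw)

theorem nice_smul1 (hg : Nice F.toPre (gv H hb g)) (hv : Nice F.toPre (F.val _ _ v.1)) :
    Nice F.toPre (F.val _ _ (g • v).1) :=
  smul_eq H hb g v ▸ (hyt H hb v.2.2.2).nice_smul1 (g := gt H hb _ g) hg hv

theorem nice_smul2 (hg : Nice F.toPre (gv H hb g)) (hv : Nice F.toPre (F.val _ _ v.2.1)) :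
    Nice F.toPre (F.val _ _ (g • v).2.1) :=
  smul_eq H hb g v ▸ (hyt H hb v.2.2.2).nice_smul2 (g := gt H hb _ g) hg hv

end act

theorem est (hy : Nk89.Hdy F) {v w : Q.C F k (Z × T)} (ht : w.2.2.2 = v.2.2.2)
    (hv : Sm I (F.val _ _ v.1)) (hw : Sm I (F.val _ _ w.1)) :
    ∃ K : Q.R F k →L[ℝ] F.H 0 Q.h, (gb Z H hb).Est v w K :=
  let ⟨K, h⟩ := (hyt H hb v.2.2.2).est (Z := Z × T) hy hv hw
  ⟨K, (frz H hb _).est rfl ht h⟩

theorem propAt (hy : Nk89.Hdy F) {v w : Q.C F k (Z × T)} (hv : Sm I (F.val _ _ v.1))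
    (hw : Sm I (F.val _ _ w.1)) : PropAt (gb Z H hb).Gr v w :=
  (tw Z H hb).propAt fun ht => let ⟨_, h⟩ := est H hb hy ht hv hw; h.propAt

end Crest.Agent.X212.Gb54
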